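import Mathlib
import Crest.Agent.R327.Paths

/-!
# Row 155: Young's inequality for traces of non-negative matrices
-/

set_option autoImplicit false

open Finset
open scoped BigOperators Matrix

namespace Crest.Agent.R155

variable {X : Type} [Fintype X] [DecidableEq X]

/-- cyclic path expansion of a trace -/
theorem yg_trace {k : ℕ} (M : Fin (k + 1) → Matrix X X ℝ) :
    (List.ofFn M).prod.trace = ∑ z : Fin (k + 1) → X, ∏ t, M t (z t) (z (t + 1)) := by
  simp only [Matrix.trace, Matrix.diag, Crest.Agent.R327.ofFn_prod_apply]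
  rw [Finset.sum_comm]
  rw [← (Fin.snocEquiv fun _ : Fin (k + 2) => X).sum_comp, Fintype.sum_prod_type, Finset.sum_comm]
  refine Finset.sum_congr rfl fun z _ => ?_
  have h0 : ∀ a : X, (Fin.snoc z a : Fin (k + 2) → X) 0 = z 0 := fun a => by
    rw [← Fin.castSucc_zero, Fin.snoc_castSucc]
  simp only [Fin.snocEquiv_apply, h0, Fin.snoc_last, Fin.snoc_castSucc, ite_and,
    Finset.sum_ite_eq, Finset.mem_univ, if_true, Finset.sum_ite_eq']
  refine Finset.prod_congr rfl fun t _ => ?_
  congr 1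
  induction t using Fin.lastCases with
  | last => rw [Fin.succ_last, Fin.snoc_last, Fin.last_add_one]
  | cast s => rw [Fin.succ_castSucc, Fin.snoc_castSucc, Fin.coeSucc_eq_succ]

omit [Fintype X] [DecidableEq X] in
theorem yg_amgm {k : ℕ} (q e : Fin (k + 1) → ℝ) (hq : ∀ t, 0 ≤ q t) (he : ∀ t, 0 ≤ e t)
    (hs : ∑ t, e t = k + 1) :
    ∏ t, q t ≤ ∑ u : Fin (k + 1), (1 / (k + 1 : ℝ)) * ∏ t, q t ^ e (t + u) := by
  have hk : (0 : ℝ) < k + 1 := by positivity
  have h := Real.geom_mean_le_arith_mean_weighted Finset.univ (fun _ : Fin (k + 1) => 1 / (k + 1 : ℝ))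
    (fun u => ∏ t, q t ^ e (t + u)) (fun _ _ => by positivity)
    (by simp; field_simp) (fun u _ => Finset.prod_nonneg fun t _ => Real.rpow_nonneg (hq t) _)
  refine le_trans (le_of_eq ?_) h
  have h1 : ∀ u : Fin (k + 1), (∏ t, q t ^ e (t + u)) ^ (1 / (k + 1 : ℝ)) =
      ∏ t, q t ^ (e (t + u) * (1 / (k + 1 : ℝ))) := fun u => by
    rw [← Real.finsetProd_rpow _ _ fun t _ => Real.rpow_nonneg (hq t) _]
    exact Finset.prod_congr rfl fun t _ => (Real.rpow_mul (hq t) _ _).symm
  simp only [h1]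
  rw [Finset.prod_comm]
  refine Finset.prod_congr rfl fun t _ => ?_
  rw [← Real.rpow_sum_of_nonneg (hq t) fun u _ => mul_nonneg (he _) (by positivity),
    ← Finset.sum_mul, show ∑ u, e (t + u) = ∑ u, e u from Equiv.sum_comp (Equiv.addLeft t) e, hs,
    mul_one_div_cancel hk.ne', Real.rpow_one]

theorem yg_core (Q : Matrix X X ℝ) (hQ : ∀ x y, 0 ≤ Q x y) {k : ℕ} (e : Fin (k + 1) → ℝ)
    (he : ∀ t, 0 ≤ e t) (hs : ∑ t, e t = k + 1) :
    (Q ^ (k + 1)).trace ≤ (List.ofFn fun t => Q.map (· ^ e t)).prod.trace := by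
  have hk : (0 : ℝ) < k + 1 := by positivity
  have h1 : Q ^ (k + 1) = (List.ofFn fun _ : Fin (k + 1) => Q).prod := by
    rw [List.ofFn_const, List.prod_replicate]
  rw [h1, yg_trace, yg_trace]
  refine (Finset.sum_le_sum fun z _ => yg_amgm _ e (fun t => hQ _ _) he hs).trans (le_of_eq ?_)
  rw [Finset.sum_comm]
  have h2 : ∀ u : Fin (k + 1), ∑ z : Fin (k + 1) → X, ∏ t, Q (z t) (z (t + 1)) ^ e (t + u) =
      ∑ z : Fin (k + 1) → X, ∏ t, Q (z t) (z (t + 1)) ^ e t := fun u => by
    rw [← (Equiv.arrowCongr (Equiv.addRight u).symm (Equiv.refl X)).sum_comp]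
    refine Finset.sum_congr rfl fun z _ => ?_
    rw [← Equiv.prod_comp (Equiv.addRight u) fun t => Q (z t) (z (t + 1)) ^ e t]
    refine Finset.prod_congr rfl fun t _ => ?_
    simp [add_right_comm]
  simp only [← Finset.mul_sum, h2, Matrix.map_apply]
  rw [Finset.sum_const, Finset.card_univ, Fintype.card_fin, nsmul_eq_mul]
  push_cast
  field_simp

theorem yg_list (Q : Matrix X X ℝ) (hQ : ∀ x y, 0 ≤ Q x y) (l : List ℝ) (hl : ∀ a ∈ l, 0 ≤ a)
    (hs : l.sum = l.length + 1) :
    (Q ^ (l.length + 1)).trace ≤ ∑ x, ∑ y, (l.map fun a => Q.map (· ^ a)).prod x y := by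
  have h := yg_core Q hQ (k := l.length) (Fin.snoc l.get 0) (fun t => by
    induction t using Fin.lastCases with
    | last => simp
    | cast s => rw [Fin.snoc_castSucc]; exact hl _ (List.get_mem _ _)) (by
    rw [Fin.sum_univ_castSucc]
    simp only [Fin.snoc_castSucc, Fin.snoc_last, add_zero]
    rw [← List.sum_ofFn, List.ofFn_get, hs])
  refine h.trans (le_of_eq ?_)
  rw [List.ofFn_succ', List.prod_concat]
  simp only [Fin.snoc_castSucc, Fin.snoc_last]
  have h1 : (List.ofFn fun i : Fin l.length => Q.map (· ^ l.get i)) =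
      l.map fun a => Q.map (· ^ a) := by
    conv_rhs => rw [← List.ofFn_get l, List.map_ofFn]
    rfl
  rw [h1]
  simp [Matrix.trace, Matrix.mul_apply]

theorem yg_rows (P : Matrix X X ℝ) (hP : ∀ x y, 0 ≤ P x y) {R : ℝ} (hR : ∀ x, ∑ y, P x y ≤ R)
    (k : ℕ) (x : X) : ∑ y, (P ^ k) x y ≤ R ^ k := by
  induction k generalizing x with
  | zero => simp [Matrix.one_apply]
  | succ k ih =>
    have hR0 : 0 ≤ R := (Finset.sum_nonneg fun y _ => hP x y).trans (hR x)
    simp only [pow_succ' P, Matrix.mul_apply]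
    rw [Finset.sum_comm]
    simp only [← Finset.mul_sum]
    calc ∑ z, P x z * ∑ y, (P ^ k) z y ≤ ∑ z, P x z * R ^ k :=
          Finset.sum_le_sum fun z _ => mul_le_mul_of_nonneg_left (ih z) (hP x z)
      _ ≤ R * R ^ k := by
          rw [← Finset.sum_mul]
          exact mul_le_mul_of_nonneg_right (hR x) (pow_nonneg hR0 k)
      _ = R ^ (k + 1) := (pow_succ' R k).symm

theorem yg_all (P : Matrix X X ℝ) (hP : ∀ x y, 0 ≤ P x y) {R : ℝ} (hR : ∀ x, ∑ y, P x y ≤ R)
    (k : ℕ) : ∑ x, ∑ y, (P ^ k) x y ≤ Fintype.card X * R ^ k := by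
  refine (Finset.sum_le_sum fun x _ => yg_rows P hP hR k x).trans (le_of_eq ?_)
  rw [Finset.sum_const, Finset.card_univ, nsmul_eq_mul]

/-- `tr Q^(k+1) ≤ |X| R^k` if the row sums of the entrywise power `Q^(1+1/k)` are at most `R`. -/
theorem young_plain (Q : Matrix X X ℝ) (hQ : ∀ x y, 0 ≤ Q x y) {k : ℕ} (hk : 1 ≤ k) {R : ℝ}
    (hR : ∀ x, ∑ y, Q x y ^ (1 + 1 / (k : ℝ)) ≤ R) :
    (Q ^ (k + 1)).trace ≤ Fintype.card X * R ^ k := by
  have hk0 : (0 : ℝ) < k := by exact_mod_cast hk
  have h := yg_list Q hQ (List.replicate k (1 + 1 / (k : ℝ)))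
    (fun a ha => by rw [List.eq_of_mem_replicate ha]; positivity)
    (by rw [List.sum_replicate, List.length_replicate, nsmul_eq_mul]; field_simp)
  rw [List.length_replicate, List.map_replicate, List.prod_replicate] at h
  exact h.trans (yg_all _ (fun x y => Real.rpow_nonneg (hQ x y) _) hR k)

/-- the same with a free step between the boosted steps -/
theorem young_free (Q : Matrix X X ℝ) (hQ : ∀ x y, 0 ≤ Q x y) {s : ℕ} (hs : 1 ≤ s) {R : ℝ}
    (hR : ∀ x, ∑ y, Q x y * ∑ z, Q y z ^ (1 + 1 / (s : ℝ)) ≤ R) :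
    (Q ^ (2 * s + 1)).trace ≤ Fintype.card X * R ^ s := by
  have hs0 : (0 : ℝ) < s := by exact_mod_cast hs
  have hlen : (List.replicate s [1, 1 + 1 / (s : ℝ)]).flatten.length = 2 * s := by
    simp [mul_comm]
  have h := yg_list Q hQ (List.replicate s [1, 1 + 1 / (s : ℝ)]).flatten
    (fun a ha => by
      obtain ⟨l, hl, ha⟩ := List.mem_flatten.1 ha
      rw [List.eq_of_mem_replicate hl] at ha
      simp only [List.mem_cons, List.not_mem_nil, or_false] at ha
      rcases ha with rfl | rfl <;> positivity)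
    (by
      rw [hlen, List.sum_flatten, List.map_replicate, List.sum_replicate, nsmul_eq_mul]
      simp only [List.sum_cons, List.sum_nil]
      push_cast
      field_simp
      ring)
  rw [hlen, List.map_flatten, List.prod_flatten, List.map_replicate, List.map_replicate,
    List.prod_replicate] at h
  refine h.trans (yg_all _ (fun x y => ?_) (fun x => ?_) s)
  · simp only [List.map_cons, List.map_nil, List.prod_cons, List.prod_nil, mul_one,
      Matrix.mul_apply, Matrix.map_apply]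
    exact Finset.sum_nonneg fun z _ =>
      mul_nonneg (Real.rpow_nonneg (hQ _ _) _) (Real.rpow_nonneg (hQ _ _) _)
  · simp only [List.map_cons, List.map_nil, List.prod_cons, List.prod_nil, mul_one,
      Matrix.mul_apply, Matrix.map_apply, Real.rpow_one]
    rw [Finset.sum_comm]
    simp only [← Finset.mul_sum]
    exact hR x

end Crest.Agent.R155
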