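import Crest.Agent.R155.Moment
import Crest.Agent.R155.Benes
import Crest.Agent.R155.Young
import Crest.Agent.R155.Dyson
import Crest.Agent.R155.RepMain
import Crest.Agent.R155.Asymp

/-!
# Row 155: the regular representation
-/

set_option autoImplicit false

open Finset Equiv
open scoped BigOperators Matrix

namespace Crest.Agent.R155

section General
variable {α : Type} [Fintype α] [DecidableEq α]

lemma sum_ind_eq {X : Type} [Fintype X] (a : X) (f : X → ℝ) : ∑ y, ind (y = a) * f y = f a := by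
  classical
  simp [ind_eq_ite]

/-- transition matrix of left multiplication by a random permutation -/
noncomputable def trM {Ω : Type} [Fintype Ω] (π : Ω → Perm α) : Matrix (Perm α) (Perm α) ℝ :=
  Matrix.of fun x y => 𝔼 ω, ind (y = π ω * x)

lemma trM_mul_apply {Ω : Type} [Fintype Ω] (π : Ω → Perm α) (N : Matrix (Perm α) (Perm α) ℝ)
    (x z : Perm α) : (trM π * N) x z = 𝔼 ω, N (π ω * x) z := by
  simp only [Matrix.mul_apply, trM, Matrix.of_apply, expect_mul]
  rw [← expect_sum_comm]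
  exact expect_congr rfl fun ω _ => sum_ind_eq _ _

lemma trM_mulVec {Ω : Type} [Fintype Ω] (π : Ω → Perm α) (v : Perm α → ℝ) (x : Perm α) :
    (trM π *ᵥ v) x = 𝔼 ω, v (π ω * x) := by
  simp only [Matrix.mulVec, dotProduct, trM, Matrix.of_apply, expect_mul]
  rw [← expect_sum_comm]
  exact expect_congr rfl fun ω _ => sum_ind_eq _ _

omit [Fintype α] [DecidableEq α] in
lemma trM_nonneg {Ω : Type} [Fintype Ω] (π : Ω → Perm α) (x y : Perm α) : 0 ≤ trM π x y :=
  expect_nonneg fun _ _ => ind_nonneg _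

lemma expect_fin_succ {Ω : Type} [Fintype Ω] (K : ℕ) (F : (Fin (K + 1) → Ω) → ℝ) :
    𝔼 w, F w = 𝔼 w : Fin K → Ω, 𝔼 a : Ω, F (Fin.snoc w a) := by
  rw [expect_comm, ← expect_product', univ_product_univ]
  exact (Fintype.expect_equiv (Fin.snocEquiv fun _ => Ω) _ _ fun _ => rfl).symm

lemma trM_pow {Ω : Type} [Fintype Ω] (π : Ω → Perm α) (K : ℕ) :
    trM π ^ K = trM (prodR π K) := by
  induction K with
  | zero =>
    ext x y
    simp [trM, prodR, Matrix.one_apply, ind_eq_ite, eq_comm]
  | succ K ih =>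
    ext x z
    rw [pow_succ, ih, trM_mul_apply]
    simp only [trM, Matrix.of_apply]
    rw [expect_fin_succ]
    simp [prodR, mul_assoc]

lemma trM_mul_transpose {Ω : Type} [Fintype Ω] (π : Ω → Perm α) :
    trM π * (trM π)ᵀ = trM (fun p : Ω × Ω => (π p.2)⁻¹ * π p.1) := by
  ext x z
  rw [trM_mul_apply]
  simp only [trM, Matrix.of_apply, Matrix.transpose_apply]
  rw [← univ_product_univ, expect_product]
  refine expect_congr rfl fun ω _ => expect_congr rfl fun ω' _ => ind_congr ?_
  rw [mul_assoc, eq_inv_mul_iff_mul_eq, eq_comm]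

lemma trace_trM {Ω : Type} [Fintype Ω] (π : Ω → Perm α) :
    (trM π).trace = (Fintype.card α).factorial * 𝔼 ω, ind (π ω = 1) := by
  have : ∀ x, trM π x x = 𝔼 ω, ind (π ω = 1) := fun x =>
    expect_congr rfl fun ω _ => ind_congr (by rw [eq_comm, mul_eq_right])
  simp [Matrix.trace, this, Fintype.card_perm]

/-- right regular representation -/
noncomputable def Rm : Perm α →* Matrix (Perm α) (Perm α) ℝ where
  toFun h := Matrix.of fun x y => ind (y = x * h)
  map_one' := by ext x y; simp [Matrix.one_apply, ind_eq_ite, eq_comm]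
  map_mul' g h := by
    ext x z
    simp only [Matrix.mul_apply, Matrix.of_apply]
    rw [sum_ind_eq (x * g) fun y => ind (z = y * h), mul_assoc]

lemma Rm_apply (h x y : Perm α) : Rm h x y = ind (y = x * h) := rfl

lemma Rm_transpose (g : Perm α) : (Rm g)ᵀ = Rm g⁻¹ := by
  ext x y
  rw [Matrix.transpose_apply, Rm_apply, Rm_apply]
  exact ind_congr (by rw [eq_mul_inv_iff_mul_eq, eq_comm])

lemma trM_comm_Rm {Ω : Type} [Fintype Ω] (π : Ω → Perm α) (g : Perm α) :
    trM π * Rm g = Rm g * trM π := by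
  ext x z
  rw [trM_mul_apply, Matrix.mul_apply]
  simp only [Rm_apply]
  rw [sum_ind_eq (x * g) fun y => trM π y z]
  simp only [trM, Matrix.of_apply, mul_assoc]

/-- `z` agrees with `w` outside `T` -/
def Rel (T : Finset α) (w z : Perm α) : Prop := ∀ a, a ∉ T → z a = w a

omit [Fintype α] [DecidableEq α] in
lemma rel_iff (T : Finset α) (w z : Perm α) : Rel T w z ↔ Supp T (w⁻¹ * z) :=
  forall₂_congr fun a _ => by rw [Perm.mul_apply, Perm.inv_eq_iff_eq]

lemma avgM_apply (χ : Perm α → ℝ) (T : Finset α) (x y : Perm α) :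
    avgM Rm χ T x y = (T.card.factorial : ℝ)⁻¹ * (ind (Rel T x y) * χ (x⁻¹ * y)) := by
  simp only [avgM, Matrix.smul_apply, Matrix.sum_apply, smul_eq_mul, Rm_apply]
  congr 1
  have : ∀ h, ind (y = x * h) = if x⁻¹ * y = h then 1 else 0 := fun h => by
    rw [← ind_eq_ite]; exact ind_congr (by rw [inv_mul_eq_iff_eq_mul])
  simp only [this, mul_ite, mul_one, mul_zero, sum_ite_eq, mem_fixer, rel_iff, ind_eq_ite,
    ite_mul, one_mul, zero_mul]

lemma sum_rel (T : Finset α) (w : Perm α) : ∑ z, ind (Rel T w z) = T.card.factorial := by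
  rw [← Equiv.sum_comp (Equiv.mulLeft w)]
  simp only [rel_iff, Equiv.coe_mulLeft, inv_mul_cancel_left, ind_eq_ite]
  rw [← card_fixer]; simp [fixer]

lemma sum_rel_mul (T : Finset α) (w : Perm α) (F : Perm α → ℝ) (hF : ∀ z, Rel T w z → F z = F w) :
    ∑ z, ind (Rel T w z) * F z = T.card.factorial * F w := by
  rw [← sum_rel T w, sum_mul]
  refine sum_congr rfl fun z _ => ?_
  by_cases h : Rel T w z
  · rw [hF z h]
  · simp [ind_neg h]

lemma avgM_idem (T : Finset α) :
    IsIdempotentElem (avgM (Rm (α := α)) (fun _ => 1) T) := by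
  have hf : (0 : ℝ) < T.card.factorial := by exact_mod_cast T.card.factorial_pos
  ext x z
  simp only [Matrix.mul_apply, avgM_apply, mul_one]
  have := sum_rel_mul T x (fun y => ind (Rel T y z)) fun y hy => ind_congr
    (forall₂_congr fun a ha => by rw [hy a ha])
  have hx : ∀ y, (T.card.factorial : ℝ)⁻¹ * ind (Rel T x y) *
      ((T.card.factorial : ℝ)⁻¹ * ind (Rel T y z)) = (T.card.factorial : ℝ)⁻¹ *
        (T.card.factorial : ℝ)⁻¹ * (ind (Rel T x y) * ind (Rel T y z)) := fun y => by ring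
  simp only [hx, ← mul_sum, this]
  field_simp

lemma trM_pow_mul_avgM {Ω : Type} [Fintype Ω] (π : Ω → Perm α) (T : Finset α) (k : ℕ) :
    trM π ^ (k + 1) * avgM Rm (fun _ => 1) T = (trM π * avgM Rm (fun _ => 1) T) ^ (k + 1) := by
  have hc : Commute (trM π) (avgM Rm (fun _ => 1) T) := by
    unfold avgM
    refine Commute.smul_right (Commute.sum_right _ _ _ fun g _ => Commute.smul_right ?_ _) _
    exact trM_comm_Rm π g
  rw [hc.mul_pow, (avgM_idem T).pow_succ_eq]

lemma trace_sgn_le (N : Matrix (Perm α) (Perm α) ℝ) (hN : ∀ x y, 0 ≤ N x y) (T : Finset α) :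
    (N * avgM Rm sgnR T).trace ≤ (N * avgM Rm (fun _ => 1) T).trace := by
  simp only [Matrix.trace, Matrix.diag, Matrix.mul_apply, avgM_apply]
  refine sum_le_sum fun x _ => sum_le_sum fun y _ => mul_le_mul_of_nonneg_left ?_ (hN _ _)
  exact mul_le_mul_of_nonneg_left (mul_le_mul_of_nonneg_left (sgnR_le_one _) (ind_nonneg _))
    (by positivity)

lemma trace_trM_avgM_univ {Ω : Type} [Fintype Ω] (π : Ω → Perm α) (χ : Perm α → ℝ)
    (hχ : ∀ x y, χ (x⁻¹ * y⁻¹ * x) = χ y) :
    (trM π * avgM Rm χ univ).trace = 𝔼 ω, χ (π ω) := by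
  have hf : (0 : ℝ) < (Fintype.card α).factorial := by exact_mod_cast Nat.factorial_pos _
  have : ∀ x, (trM π * avgM Rm χ univ) x x =
      ((Fintype.card α).factorial : ℝ)⁻¹ * 𝔼 ω, χ (π ω) := by
    intro x
    rw [trM_mul_apply, mul_expect]
    refine expect_congr rfl fun ω _ => ?_
    rw [avgM_apply, ind_pos (p := Rel univ _ _) (fun a ha => absurd (mem_univ a) ha), one_mul, mul_inv_rev, hχ,
      card_univ]
  simp only [Matrix.trace, Matrix.diag, this, sum_const, card_univ, Fintype.card_perm,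
    nsmul_eq_mul]
  field_simp

lemma expect_sgn_prodR {Ω : Type} [Fintype Ω] (π : Ω → Perm α) (h : 𝔼 ω, sgnR (π ω) = 0) (K : ℕ) :
    𝔼 w, sgnR (prodR π (K + 1) w) = 0 := by
  rw [expect_fin_succ]
  refine expect_eq_zero fun w _ => ?_
  simp only [prodR, Fin.snoc_last, Fin.snoc_castSucc, sgnR_mul, ← expect_mul, h, zero_mul]

lemma quad_le {Ω : Type} [Fintype Ω] [Nonempty Ω] (π : Ω → Perm α) (v : Perm α → ℝ) :
    v ⬝ᵥ trM π *ᵥ v ≤ v ⬝ᵥ v := by
  simp only [dotProduct, trM_mulVec, mul_expect]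
  rw [← expect_sum_comm]
  refine expect_le univ_nonempty fun ω _ => ?_
  have h1 : ∑ x, v (π ω * x) * v (π ω * x) = ∑ x, v x * v x :=
    Equiv.sum_comp (Equiv.mulLeft (π ω)) fun x => v x * v x
  have h2 : ∑ x, v x * v (π ω * x) ≤ ∑ x, (v x * v x + v (π ω * x) * v (π ω * x)) / 2 :=
    sum_le_sum fun x _ => by nlinarith [sq_nonneg (v x - v (π ω * x))]
  rw [← sum_div, sum_add_distrib, h1] at h2
  linarith

end General

lemma sgnR_bf_expect (D : ℕ) : 𝔼 ω : Bits (D + 1), sgnR (bf (D + 1) ω) = 0 := by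
  rw [expect_bits_succ, expect_comm]
  refine expect_eq_zero fun f0 _ => ?_
  rw [expect_comm]
  refine expect_eq_zero fun f1 _ => ?_
  set u : Pos D := default
  have hinv : Function.Involutive (fun e : Pos D → Bool => Function.update e u (!e u)) := by
    intro e; simp
  have h1 := Fintype.expect_bijective _ hinv.bijective
    (fun c => -sgnR (bf (D + 1) (c, f0, f1))) (fun c => sgnR (bf (D + 1) (c, f0, f1))) fun c => by
      have e : sw (Function.update c u (!c u)) =
          sw c * swap ((false, u) : Bool × Pos D) (true, u) := by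
        ext1 ⟨b, v⟩
        by_cases h : v = u
        · subst h
          cases b <;> simp
        · rw [Perm.mul_apply, swap_apply_of_ne_of_ne (by simp [h]) (by simp [h])]
          simp [h]
      have e2 : sgnR (α := Bool × Pos D) (par (bf D f0) (bf D f1) *
          sw (Function.update c u (!c u))) =
          -sgnR (α := Bool × Pos D) (par (bf D f0) (bf D f1) * sw c) := by
        rw [e, ← mul_assoc, sgnR_mul, sgnR_swap (by simp)]; ring
      exact e2.symm
  rw [expect_neg_distrib] at h1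
  linarith

/-- the Benes permutation as a random variable on pairs of bit tables -/
def benP (D : ℕ) (p : Bits D × Bits D) : Perm (Pos D) := ben D p.1 p.2

lemma expect_pair (D : ℕ) (F : Bits D → Bits D → ℝ) :
    𝔼 p : Bits D × Bits D, F p.1 p.2 = 𝔼 ω, 𝔼 ω', F ω ω' := by
  rw [← univ_product_univ, expect_product]

lemma rel_ben_iff {D : ℕ} (T : Finset (Pos D)) (π x z : Perm (Pos D)) :
    Rel T (π * x) z ↔ ∀ b ∈ Tᶜ.image x, π b = (z * x⁻¹) b := by
  simp only [Rel, forall_mem_image, mem_compl, Perm.mul_apply]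
  exact forall₂_congr fun a _ => by simp [eq_comm]

lemma Q_apply (D : ℕ) (T : Finset (Pos D)) (x z : Perm (Pos D)) :
    (trM (benP D) * avgM Rm (fun _ => 1) T) x z =
      (T.card.factorial : ℝ)⁻¹ * kb D (Tᶜ.image x) ⇑(z * x⁻¹) := by
  rw [trM_mul_apply, kb, ← expect_pair, mul_expect]
  refine expect_congr rfl fun p _ => ?_
  rw [avgM_apply, mul_one, ind_congr (rel_ben_iff T _ x z)]
  rfl

lemma Q_row (D : ℕ) (T : Finset (Pos D)) (δ : ℝ) (hδ : 0 ≤ δ) (x : Perm (Pos D)) :
    ∑ z, (trM (benP D) * avgM Rm (fun _ => 1) T) x z ^ (1 + δ) ≤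
      (T.card.factorial : ℝ)⁻¹ ^ δ * Real.exp (-(δ * Real.log 2 * (D * Tᶜ.card))) *
        𝔼 ω, 𝔼 ω', Real.exp (δ * Real.log 2 * Lam D ω ω' (Tᶜ.image x)) := by
  have hf : (0 : ℝ) < (T.card.factorial : ℝ)⁻¹ := by
    have : (0 : ℝ) < T.card.factorial := by exact_mod_cast T.card.factorial_pos
    positivity
  calc _ ≤ ∑ z : Perm (Pos D), (T.card.factorial : ℝ)⁻¹ ^ (1 + δ) *
        (Real.exp (-(δ * Real.log 2 * (D * Tᶜ.card))) * 𝔼 ω, 𝔼 ω',
          ind (Rel T (ben D ω ω' * x) z) * Real.exp (δ * Real.log 2 * Lam D ω ω' (Tᶜ.image x))) := by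
        refine sum_le_sum fun z _ => ?_
        rw [Q_apply, Real.mul_rpow hf.le (kb_nonneg _ _ _)]
        refine mul_le_mul_of_nonneg_left ?_ (Real.rpow_nonneg hf.le _)
        have := kb_rpow_le δ hδ D (Tᶜ.image x) ⇑(z * x⁻¹)
        rw [card_image_of_injective _ x.injective] at this
        simpa only [rel_ben_iff] using this
    _ = _ := by
        rw [← mul_sum, ← mul_sum, ← expect_sum_comm]
        simp only [← expect_sum_comm, ← sum_mul, sum_rel, ← mul_expect]
        rw [Real.rpow_add hf, Real.rpow_one]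
        have : (T.card.factorial : ℝ) ≠ 0 := by exact_mod_cast T.card.factorial_ne_zero
        field_simp

lemma exp_neg_log (D i : ℕ) :
    Real.exp (-(Real.log 2 * (D * i))) = ((((2 ^ D : ℕ) : ℝ)) ^ i)⁻¹ := by
  rw [Real.exp_neg, ← Nat.cast_mul, mul_comm, Real.exp_nat_mul, Real.exp_log (by norm_num),
    pow_mul]; push_cast; rfl

lemma Q_nonneg (D : ℕ) (T : Finset (Pos D)) (x z : Perm (Pos D)) :
    0 ≤ (trM (benP D) * avgM Rm (fun _ => 1) T) x z := by
  rw [Q_apply]; exact mul_nonneg (by positivity) (kb_nonneg _ _ _)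

lemma trace_I (D : ℕ) (T : Finset (Pos D)) (i : ℕ) (hi : T.card + i = 2 ^ D)
    (hx : ((i : ℝ) / (2 ^ D : ℕ)) ^ 2 ≤ 25 / 64) :
    (trM (benP D) ^ 145 * avgM Rm (fun _ => 1) T).trace ≤ PhiF (2 ^ D) i := by
  have hTc : Tᶜ.card = i := by rw [card_compl, card_pos]; omega
  have hfp : (0 : ℝ) < T.card.factorial := by exact_mod_cast T.card.factorial_pos
  set x : ℝ := (i : ℝ) / 2 ^ D with hxd
  have hx' : x ^ 2 ≤ 25 / 64 := by simpa using hx
  set c : ℝ := (T.card.factorial : ℝ)⁻¹ ^ (1 / 72 : ℝ) *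
    Real.exp (-(1 / 72 * Real.log 2 * (D * i))) with hc
  have hc0 : 0 ≤ c := by positivity
  rw [trM_pow_mul_avgM]
  have h := young_free (trM (benP D) * avgM Rm (fun _ => 1) T) (Q_nonneg D T) (s := 72)
    (by norm_num) (R := c * Real.exp (1 / 72 * (6 / 5 * x ^ 2 * 2 ^ D))) fun g => ?_
  · refine h.trans (le_of_eq ?_)
    rw [Fintype.card_perm, card_pos, PhiF, hc, mul_pow, mul_pow, ← Real.exp_nat_mul,
      ← Real.exp_nat_mul, ← Real.rpow_natCast, ← Real.rpow_mul (by positivity)]
    have e1 : ((72 : ℕ) : ℝ) * -(1 / 72 * Real.log 2 * (D * i)) = -(Real.log 2 * (D * i)) := by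
      push_cast; ring
    have e2 : ((72 : ℕ) : ℝ) * (1 / 72 * (6 / 5 * x ^ 2 * 2 ^ D)) =
        6 / 5 * ((i : ℝ) / (2 ^ D : ℕ)) ^ 2 * (2 ^ D : ℕ) := by rw [hxd]; push_cast; ring
    rw [e1, e2, exp_neg_log, show 2 ^ D - i = T.card by omega]
    norm_num
    field_simp
  · set F : Perm (Pos D) → ℝ := fun y =>
      𝔼 ω, 𝔼 ω', Real.exp (1 / 72 * Real.log 2 * Lam D ω ω' (Tᶜ.image y)) with hF
    calc _ ≤ ∑ y, (trM (benP D) * avgM Rm (fun _ => 1) T) g y * (c * F y) := by
          refine sum_le_sum fun y _ => mul_le_mul_of_nonneg_left ?_ (Q_nonneg D T g y)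
          have := Q_row D T (1 / 72) (by norm_num) y
          rw [hTc] at this
          rw [hc, hF, Nat.cast_ofNat]
          exact this
      _ = c * 𝔼 p, F (benP D p * g) := by
          simp only [trM_mul_apply, avgM_apply, mul_one, expect_mul]
          rw [← expect_sum_comm, mul_expect]
          refine expect_congr rfl fun p _ => ?_
          have := sum_rel_mul T (benP D p * g) F fun z hz => by
            have : Tᶜ.image z = Tᶜ.image ⇑(benP D p * g) :=
              image_congr fun a ha => hz a (by simpa using ha)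
            simp only [hF, this]
          calc _ = (T.card.factorial : ℝ)⁻¹ * c *
                ∑ z, ind (Rel T (benP D p * g) z) * F z := by
                rw [mul_sum]; exact sum_congr rfl fun z _ => by ring
            _ = _ := by rw [this]; field_simp
      _ ≤ _ := by
          refine mul_le_mul_of_nonneg_left ?_ hc0
          have hS := cyl_ben D (Tᶜ.image g)
          rw [card_image_of_injective _ g.injective, hTc] at hS
          have := momentI D _ x (by positivity) hx' hS
          refine le_trans (le_of_eq (expect_congr rfl fun p _ => ?_)) this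
          simp only [hF, image_image, benP, Perm.coe_mul]

lemma trace_II (D : ℕ) : (trM (benP D) ^ 200).trace ≤ qF (2 ^ D) := by
  have h1 : avgM (Rm (α := Pos D)) (fun _ => 1) ∅ = 1 := by
    ext x y
    rw [avgM_apply, Matrix.one_apply]
    have : Rel ∅ x y ↔ x = y :=
      ⟨fun h => Equiv.ext fun a => (h a (by simp)).symm, fun h a _ => by rw [h]⟩
    simp [ind_congr this, ind_eq_ite]
  have h := young_plain (trM (benP D)) (trM_nonneg _) (k := 199) (by norm_num)
    (R := Real.exp (-(1 / 199 * Real.log 2 * (D * (2 ^ D : ℕ)))) *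
      Real.exp (1 / 199 * (159 / 100 * 2 ^ D))) fun g => ?_
  · refine h.trans (le_of_eq ?_)
    rw [Fintype.card_perm, card_pos, qF, mul_pow, ← Real.exp_nat_mul, ← Real.exp_nat_mul]
    have e1 : ((199 : ℕ) : ℝ) * -(1 / 199 * Real.log 2 * (D * (2 ^ D : ℕ))) =
        -(Real.log 2 * (D * (2 ^ D : ℕ))) := by push_cast; ring
    have e2 : ((199 : ℕ) : ℝ) * (1 / 199 * (159 / 100 * 2 ^ D)) = 159 / 100 * (2 ^ D : ℕ) := by
      push_cast; ring
    rw [e1, e2, exp_neg_log]
    field_simp
  · have := Q_row D ∅ (1 / 199) (by norm_num) g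
    rw [h1, mul_one, compl_empty, image_univ_equiv, card_univ, card_pos] at this
    simp only [card_empty, Nat.factorial_zero, Nat.cast_one, inv_one, Real.one_rpow,
      one_mul] at this
    refine le_trans (by simpa using this)
      (mul_le_mul_of_nonneg_left (momentII D) (Real.exp_pos _).le)

lemma coll_eq (D K : ℕ) : ((2 ^ D).factorial : ℝ) * coll D K =
    ((trM (bf D))ᵀᵀ ^ K * (trM (bf D))ᵀ ^ K).trace := by
  rw [Matrix.transpose_transpose, ← Matrix.transpose_pow, trM_pow, trM_mul_transpose, trace_trM,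
    card_pos, coll, ← univ_product_univ, expect_product]
  congr 1
  exact expect_congr rfl fun w _ => expect_congr rfl fun w' _ =>
    ind_congr (by rw [inv_mul_eq_one, eq_comm])

/-- the collision probability is at most `(1 + 2 errI + errII) / n!` -/
theorem coll_le (D : ℕ) (hD : 1 ≤ D) :
    ((2 ^ D).factorial : ℝ) * coll D 1600 ≤ 1 + 2 * errI (2 ^ D) + errII (2 ^ D) := by
  obtain ⟨d, rfl⟩ : ∃ d, D = d + 1 := ⟨D - 1, by omega⟩
  set D := d + 1
  have hZ : trM (bf D) * (trM (bf D))ᵀ = trM (benP D) := trM_mul_transpose (bf D)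
  have h1 := coll_eq D 1600
  have h2 := dyson (trM (bf D))ᵀ 1600
  rw [← h1, Matrix.transpose_transpose, hZ] at h2
  have h3 := rep_main_matrix (Rm (α := Pos D)) Rm_transpose (trM (benP D))
    (by rw [← hZ, Matrix.transpose_mul, Matrix.transpose_transpose]) (trM_comm_Rm _)
    (fun v => by
      rw [← hZ, ← Matrix.mulVec_mulVec, Matrix.dotProduct_mulVec, ← Matrix.mulVec_transpose]
      exact sum_nonneg fun _ _ => mul_self_nonneg _)
    (quad_le _) (K := 1600) (k := 145) (g := 11) (k' := 200) (g' := 8) (by norm_num)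
    (by norm_num) (by norm_num) (by norm_num) (iF (2 ^ D)) (fun j => PhiF (2 ^ D) (iF (2 ^ D) j))
    (fun j _ hj => by rw [card_pos] at hj ⊢; exact iF_bounds hj)
    (fun j _ _ T hT => by
      rw [card_pos] at hT
      have := trace_I D T _ hT (iF_sq_le j)
      refine ⟨this, le_trans (trace_sgn_le _ (fun x y => ?_) T) this⟩
      rw [trM_pow]; exact trM_nonneg _ _ _)
    (qF (2 ^ D)) (trace_II D)
  have h4 : (trM (benP D) ^ 1600 * avgM Rm (fun _ => 1) univ).trace = 1 := by
    rw [trM_pow, trace_trM_avgM_univ _ _ fun _ _ => rfl]; simp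
  have h5 : (trM (benP D) ^ 1600 * avgM Rm sgnR univ).trace = 0 := by
    rw [trM_pow, trace_trM_avgM_univ _ _ fun x y => by
      rw [sgnR_mul, sgnR_mul, sgnR_inv, sgnR_inv, mul_comm (sgnR x), mul_assoc, sgnR_mul_self,
        mul_one]]
    refine expect_sgn_prodR _ ?_ 1599
    rw [show 𝔼 p, sgnR (benP D p) = 𝔼 ω, 𝔼 ω', sgnR (ben D ω ω') from
      expect_pair D fun ω ω' => sgnR (ben D ω ω'), expect_comm]
    refine expect_eq_zero fun ω' _ => ?_
    simp only [ben, sgnR_mul, ← mul_expect]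
    rw [sgnR_bf_expect, mul_zero]
  rw [h4, h5, card_pos, add_zero] at h3
  exact h2.trans h3

end Crest.Agent.R155
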